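import Vale.Agent.P057H.All
import Vale.Agent.P057HW.Wt

/-! Polylogarithmic upper bound for sets without `k`-term arithmetic progressions, all `k ≥ 3`,
and the weighted form of the conjecture on sums of reciprocals that follows from it. -/

namespace Vale.Agent.Results.P057.AAPolyLog

theorem result : ∀ k : ℕ, 3 ≤ k →
    (∃ c : ℝ, 0 < c ∧ ∃ N₀ : ℕ, ∀ N : ℕ, N₀ ≤ N →
      ∀ A : Finset ℕ, A ⊆ Finset.Icc 1 N →
        (∀ a d : ℕ, 0 < d → ¬ ∀ i : ℕ, i < k → a + i * d ∈ A) →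
        (A.card : ℝ) ≤ N / Real.log N ^ c) ∧
    (∃ c : ℝ, 0 < c ∧ ∀ A : Set ℕ, (∀ a ∈ A, 0 < a) →
      ¬ Summable (fun a : A =>
        (1 : ℝ) / (((a : ℕ) : ℝ) * Real.log (((a : ℕ) : ℝ) + 1) ^ (1 - c))) →
      ∃ a d : ℕ, 0 < d ∧ ∀ i : ℕ, i < k → a + i * d ∈ A) :=
  fun k hk => ⟨Vale.Agent.P057H.All.final k hk,
    Vale.Agent.P057H.H56.weighted Vale.Agent.P057H.All.final k hk⟩

end Vale.Agent.Results.P057.AAPolyLog
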