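import Vale.Agent.P057L.All

namespace Vale.Agent.Results.P057.AUpperAllK

/-- An upper bound for subsets of `{1, ..., N}` without `k`-term arithmetic progressions. -/
theorem result : ∀ k : ℕ, 3 ≤ k → ∃ c : ℝ, 0 < c ∧ ∃ N₀ : ℕ, ∀ N : ℕ, N₀ ≤ N →
    ∀ A : Finset ℕ, A ⊆ Finset.Icc 1 N → (∀ a d : ℕ, 0 < d → ¬ ∀ i : ℕ, i < k → a + i * d ∈ A) →
      (A.card : ℝ) ≤
        N * Real.exp (-(c * Real.log (Real.log N) / Real.log (Real.log (Real.log N)))) :=
  Vale.Agent.P057L.All.final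

end Vale.Agent.Results.P057.AUpperAllK
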